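import Mathlib

/-!
An abstract pigeonhole form of the failure of a partition into pieces of smaller diameter.
-/

namespace Vale.Agent.helper9.Borsuk

theorem borsuk_abstract {X : Type*} [PseudoMetricSpace X] {L : Type*} [Fintype L] [DecidableEq L]
    (pt : L → X) (D : ℝ) (hD : 0 < D) (h1 : ∀ a b, dist (pt a) (pt b) ≤ D)
    (a0 b0 : L) (h2 : dist (pt a0) (pt b0) = D) (k m : ℕ)
    (hcard : m * k < Fintype.card L)
    (hcl : ∀ K : Finset L, (∀ a ∈ K, ∀ b ∈ K, a ≠ b → dist (pt a) (pt b) < D) → K.card ≤ k) :
    (Set.range pt).Finite ∧ 0 < Metric.diam (Set.range pt) ∧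
      ¬ ∃ P : Fin m → Set X, Set.range pt = ⋃ i, P i ∧
        ∀ i, Metric.diam (P i) < Metric.diam (Set.range pt) := by
  have hfin : (Set.range pt).Finite := Set.finite_range pt
  have hbdd : Bornology.IsBounded (Set.range pt) := hfin.isBounded
  have hdiam : Metric.diam (Set.range pt) = D := by
    apply le_antisymm
    · apply Metric.diam_le_of_forall_dist_le hD.le
      rintro _ ⟨a, rfl⟩ _ ⟨b, rfl⟩
      exact h1 a b
    · rw [← h2]
      exact Metric.dist_le_diam_of_mem hbdd (Set.mem_range_self a0) (Set.mem_range_self b0)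
  refine ⟨hfin, by rw [hdiam]; exact hD, ?_⟩
  rintro ⟨P, hY, hP⟩
  have hex : ∀ a : L, ∃ i, pt a ∈ P i := by
    intro a
    have : pt a ∈ ⋃ i, P i := by rw [← hY]; exact Set.mem_range_self a
    exact Set.mem_iUnion.1 this
  choose c hc using hex
  have hcard' : (Finset.univ : Finset (Fin m)).card * k < (Finset.univ : Finset L).card := by
    simpa using hcard
  obtain ⟨i, _, hi⟩ := Finset.exists_lt_card_fiber_of_mul_lt_card_of_maps_to
    (s := (Finset.univ : Finset L)) (t := (Finset.univ : Finset (Fin m))) (f := c)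
    (fun a _ => Finset.mem_univ _) hcard'
  have hle := hcl (Finset.univ.filter fun x => c x = i) (by
    intro a ha b hb _
    have ha' : c a = i := (Finset.mem_filter.1 ha).2
    have hb' : c b = i := (Finset.mem_filter.1 hb).2
    have hsub : P i ⊆ Set.range pt := by
      rw [hY]; exact Set.subset_iUnion P i
    have hbddi : Bornology.IsBounded (P i) := hbdd.subset hsub
    have hh := Metric.dist_le_diam_of_mem hbddi (ha' ▸ hc a) (hb' ▸ hc b)
    have := hP i
    rw [hdiam] at this
    exact lt_of_le_of_lt hh this)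
  omega

end Vale.Agent.helper9.Borsuk
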