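import Vale.Agent.helper9.Borsuk.Data
import Mathlib

/-!
Reflective search for cliques in the graph given by `adjTable`, checked by kernel reduction.
-/

namespace Vale.Agent.helper9.Borsuk

/-- Row `x` of the adjacency table as a bit mask. -/
def row (x : Nat) : Nat := Nat.mod (Nat.shiftRight adjTable (Nat.mul 416 x)) (Nat.pow 2 416)

/-- Discrete logarithm table used only to speed up the search. -/
def dlogT : Nat := 6249479914204836447829589179449961587819431733260580690066569397144293864137235539331451908209989256908517277653665201766062143508588956001504101379003677033523570645550090647227225335950173225510031051121006997168995779235159921260045995336941463630423434803638236960215411352486972264520747491686464417199061683334435425793924196300127231013209339288890744404487831509275750970824549147138402193626927150759977871353170755671969067883307723726636714723413523691262787450059653070109283082681463315779767324172652393737321417302926972761207785983721575052737438849699426800812410662156535976429094042044868686060939460407835215221035820625282530343639362120158609336134414596630027817696667318078708244825668966898782252041030739192207003165439831987582131509257437429752533109501392648907269358148860605912686976412336726579981916514086501761823066934817711895512181949237912389221371093102591044460741529355917618988999754671680264931473443650719277791489925381136102784116514761930833489867658808289629920817388555905266882742655650153046718884680750599743305722984068947509332860261626232381636504190096498231517589660254081384448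

/-- A heuristic choice of vertex; its correctness is not needed for soundness. -/
def pick (c : Nat) : Nat :=
  Nat.mod (Nat.shiftRight dlogT (Nat.mul 9 (Nat.mod (Nat.gcd c (Nat.pow 2 416)) 419))) 512

/-- One level of the search, with fuel. -/
def loop (ih : Nat → Bool) (f : Nat) : Nat → Bool :=
  Nat.rec (fun c => Nat.beq c 0) (fun _ self c =>
       cond (Nat.beq c 0) true
        (and (ih (Nat.land (Nat.xor c (Nat.pow 2 (pick c))) (row (pick c))))
          (self (Nat.xor c (Nat.pow 2 (pick c)))))) f

/-- `nc k c = true` certifies that the mask `c` contains no clique of size `k`. -/
def nc (k : Nat) : Nat → Bool := Nat.rec (fun _ => false) (fun _ ih => loop ih 416) k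

/-- All indices below `n` pass the test. -/
def allBelow (p : Nat → Bool) (n : Nat) : Bool := Nat.rec true (fun i ih => and (p i) ih) n

/-- Test for the vertex `v` as the largest vertex of a 6-clique in `wMask`. -/
def topCheck (v : Nat) : Bool :=
  or (Nat.beq (Nat.mod (Nat.shiftRight wMask v) 2) 0)
    (nc 5 (Nat.land (Nat.mod wMask (Nat.pow 2 v)) (row v)))

/-- Test for a range of vertices. -/
def segCheck (lo n : Nat) : Bool := allBelow (fun i => topCheck (Nat.add lo i)) n

theorem allBelow_spec (p : Nat → Bool) (n : Nat) (h : allBelow p n = true) :
    ∀ i, i < n → p i = true := by
  induction n with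
  | zero => intro i hi; omega
  | succ n ih =>
    have h' : (p n && allBelow p n) = true := h
    rw [Bool.and_eq_true] at h'
    intro i hi
    rcases Nat.lt_succ_iff_lt_or_eq.mp hi with hlt | rfl
    · exact ih h'.2 i hlt
    · exact h'.1

theorem segCheck_spec (lo n : Nat) (h : segCheck lo n = true) :
    ∀ v, lo ≤ v → v < lo + n → topCheck v = true := by
  intro v h1 h2
  have := allBelow_spec _ n h (v - lo) (by omega)
  have e : lo + (v - lo) = v := by omega
  have this' : topCheck (lo + (v - lo)) = true := this
  rwa [e] at this'

/-- No clique inside `c` of size `k`: the statement certified by the search. -/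
def NoClique (k c : Nat) : Prop :=
  ∀ K : Finset Nat, K.card = k → (∀ v ∈ K, c.testBit v = true) →
    (∀ u ∈ K, ∀ v ∈ K, u ≠ v → (row u).testBit v = true) → False

theorem loop_sound (ih : Nat → Bool) (k : Nat) (hih : ∀ c, ih c = true → NoClique k c) (f : Nat) :
    ∀ c, loop ih f c = true → NoClique (k + 1) c := by
  have hzero : ∀ c, Nat.beq c 0 = true → NoClique (k + 1) c := by
    intro c hc K hK hmem _
    have hc0 : c = 0 := Nat.eq_of_beq_eq_true hc
    subst hc0
    have : K.Nonempty := by rw [← Finset.card_pos]; omega
    obtain ⟨v, hv⟩ := this
    have := hmem v hv
    exact absurd this (by rw [Nat.zero_testBit]; simp)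
  induction f with
  | zero => exact hzero
  | succ f IH =>
    intro c hc
    have hc' : cond (Nat.beq c 0) true
        (and (ih (Nat.land (Nat.xor c (Nat.pow 2 (pick c))) (row (pick c))))
          (loop ih f (Nat.xor c (Nat.pow 2 (pick c))))) = true := hc
    cases hb : Nat.beq c 0 with
    | true => exact hzero c hb
    | false =>
      rw [hb] at hc'
      have hand : (ih (Nat.land (Nat.xor c (Nat.pow 2 (pick c))) (row (pick c))) &&
          loop ih f (Nat.xor c (Nat.pow 2 (pick c)))) = true := hc'
      rw [Bool.and_eq_true] at hand
      obtain ⟨h1, h2⟩ := hand
      intro K hK hmem hclq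
      have hv1 := hih _ h1
      have hv2 := IH _ h2
      set v := pick c with hvdef
      have hxor : ∀ u, u ≠ v → (Nat.xor c (Nat.pow 2 v)).testBit u = c.testBit u := by
        intro u hu
        have e : Nat.xor c (Nat.pow 2 v) = c ^^^ 2 ^ v := rfl
        rw [e, Nat.testBit_xor]
        have : (2 ^ v : Nat).testBit u = false := by
          rw [Nat.testBit_two_pow]; exact decide_eq_false (by omega)
        rw [this]; simp
      by_cases hvK : v ∈ K
      · refine hv1 (K.erase v) ?_ ?_ ?_
        · rw [Finset.card_erase_of_mem hvK, hK]; rfl
        · intro u hu
          have hne : u ≠ v := Finset.ne_of_mem_erase hu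
          have huK : u ∈ K := Finset.mem_of_mem_erase hu
          have e : Nat.land (Nat.xor c (Nat.pow 2 v)) (row v) = (Nat.xor c (Nat.pow 2 v)) &&& (row v) := rfl
          rw [e, Nat.testBit_and, hxor u hne, hmem u huK, hclq v hvK u huK (Ne.symm hne)]
          rfl
        · intro u hu w hw huw
          exact hclq u (Finset.mem_of_mem_erase hu) w (Finset.mem_of_mem_erase hw) huw
      · refine hv2 K hK ?_ hclq
        intro u hu
        have hne : u ≠ v := by rintro rfl; exact hvK hu
        rw [hxor u hne]
        exact hmem u hu

theorem nc_sound (k : Nat) : ∀ c, nc k c = true → NoClique k c := by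
  induction k with
  | zero =>
    intro c hc
    exact absurd hc (by simp [nc])
  | succ k ih =>
    intro c hc
    exact loop_sound (nc k) k ih 416 c hc

end Vale.Agent.helper9.Borsuk
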