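import Vale.Agent.helper9.Borsuk.Clique

namespace Vale.Agent.helper9.Borsuk

theorem seg_0_197 : segCheck 0 197 = true := by decide +kernel
theorem seg_197_33 : segCheck 197 33 = true := by decide +kernel
theorem seg_230_23 : segCheck 230 23 = true := by decide +kernel
theorem seg_253_19 : segCheck 253 19 = true := by decide +kernel
theorem seg_272_12 : segCheck 272 12 = true := by decide +kernel
theorem seg_284_14 : segCheck 284 14 = true := by decide +kernel
theorem seg_298_10 : segCheck 298 10 = true := by decide +kernel
theorem seg_308_10 : segCheck 308 10 = true := by decide +kernel
theorem seg_318_11 : segCheck 318 11 = true := by decide +kernel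
theorem seg_329_7 : segCheck 329 7 = true := by decide +kernel
theorem seg_336_8 : segCheck 336 8 = true := by decide +kernel
theorem seg_344_9 : segCheck 344 9 = true := by decide +kernel
theorem seg_353_8 : segCheck 353 8 = true := by decide +kernel

end Vale.Agent.helper9.Borsuk
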