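import Vale.Agent.helper9.Borsuk.Clique

namespace Vale.Agent.helper9.Borsuk

theorem seg_361_4 : segCheck 361 4 = true := by decide +kernel
theorem seg_365_9 : segCheck 365 9 = true := by decide +kernel
theorem seg_374_5 : segCheck 374 5 = true := by decide +kernel
theorem seg_379_8 : segCheck 379 8 = true := by decide +kernel
theorem seg_387_4 : segCheck 387 4 = true := by decide +kernel
theorem seg_391_2 : segCheck 391 2 = true := by decide +kernel
theorem seg_393_4 : segCheck 393 4 = true := by decide +kernel
theorem seg_397_5 : segCheck 397 5 = true := by decide +kernel
theorem seg_402_5 : segCheck 402 5 = true := by decide +kernel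
theorem seg_407_3 : segCheck 407 3 = true := by decide +kernel
theorem seg_410_3 : segCheck 410 3 = true := by decide +kernel
theorem seg_413_2 : segCheck 413 2 = true := by decide +kernel
theorem seg_415_1 : segCheck 415 1 = true := by decide +kernel

end Vale.Agent.helper9.Borsuk
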