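import Vale.Agent.helper9.Borsuk.Linear
import Vale.Agent.helper9.Borsuk.CliqueSeg1
import Vale.Agent.helper9.Borsuk.CliqueSeg2

/-!
The clique bounds for the sets `W` and `N` in the graph given by `adjTable`.
-/

namespace Vale.Agent.helper9.Borsuk

theorem topCheck_all (v : Nat) (hv : v < 416) : topCheck v = true := by
  by_cases h0 : v < 197
  · exact segCheck_spec 0 197 seg_0_197 v (by omega) (by omega)
  by_cases h197 : v < 230
  · exact segCheck_spec 197 33 seg_197_33 v (by omega) (by omega)
  by_cases h230 : v < 253
  · exact segCheck_spec 230 23 seg_230_23 v (by omega) (by omega)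
  by_cases h253 : v < 272
  · exact segCheck_spec 253 19 seg_253_19 v (by omega) (by omega)
  by_cases h272 : v < 284
  · exact segCheck_spec 272 12 seg_272_12 v (by omega) (by omega)
  by_cases h284 : v < 298
  · exact segCheck_spec 284 14 seg_284_14 v (by omega) (by omega)
  by_cases h298 : v < 308
  · exact segCheck_spec 298 10 seg_298_10 v (by omega) (by omega)
  by_cases h308 : v < 318
  · exact segCheck_spec 308 10 seg_308_10 v (by omega) (by omega)
  by_cases h318 : v < 329
  · exact segCheck_spec 318 11 seg_318_11 v (by omega) (by omega)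
  by_cases h329 : v < 336
  · exact segCheck_spec 329 7 seg_329_7 v (by omega) (by omega)
  by_cases h336 : v < 344
  · exact segCheck_spec 336 8 seg_336_8 v (by omega) (by omega)
  by_cases h344 : v < 353
  · exact segCheck_spec 344 9 seg_344_9 v (by omega) (by omega)
  by_cases h353 : v < 361
  · exact segCheck_spec 353 8 seg_353_8 v (by omega) (by omega)
  by_cases h361 : v < 365
  · exact segCheck_spec 361 4 seg_361_4 v (by omega) (by omega)
  by_cases h365 : v < 374
  · exact segCheck_spec 365 9 seg_365_9 v (by omega) (by omega)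
  by_cases h374 : v < 379
  · exact segCheck_spec 374 5 seg_374_5 v (by omega) (by omega)
  by_cases h379 : v < 387
  · exact segCheck_spec 379 8 seg_379_8 v (by omega) (by omega)
  by_cases h387 : v < 391
  · exact segCheck_spec 387 4 seg_387_4 v (by omega) (by omega)
  by_cases h391 : v < 393
  · exact segCheck_spec 391 2 seg_391_2 v (by omega) (by omega)
  by_cases h393 : v < 397
  · exact segCheck_spec 393 4 seg_393_4 v (by omega) (by omega)
  by_cases h397 : v < 402
  · exact segCheck_spec 397 5 seg_397_5 v (by omega) (by omega)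
  by_cases h402 : v < 407
  · exact segCheck_spec 402 5 seg_402_5 v (by omega) (by omega)
  by_cases h407 : v < 410
  · exact segCheck_spec 407 3 seg_407_3 v (by omega) (by omega)
  by_cases h410 : v < 413
  · exact segCheck_spec 410 3 seg_410_3 v (by omega) (by omega)
  by_cases h413 : v < 415
  · exact segCheck_spec 413 2 seg_413_2 v (by omega) (by omega)
  by_cases h415 : v < 416
  · exact segCheck_spec 415 1 seg_415_1 v (by omega) (by omega)
  · omega

theorem testBit_iff_bitN (m x : Nat) : m.testBit x = true ↔ bitN m x = 1 := by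
  have e : bitN m x = m / 2 ^ x % 2 := by
    show (m >>> x) % 2 = _
    rw [Nat.shiftRight_eq_div_pow]
  rw [e, Nat.testBit_eq_decide_div_mod_eq]
  simp

theorem wMask_lt : wMask < 2 ^ 416 := by decide +kernel

theorem nMask_lt : nMask < 2 ^ 416 := by decide +kernel

theorem lt_of_testBit_w {v : Nat} (h : wMask.testBit v = true) : v < 416 := by
  by_contra hv
  have h1 : wMask < 2 ^ v :=
    lt_of_lt_of_le wMask_lt (Nat.pow_le_pow_right (by norm_num) (by omega))
  rw [Nat.testBit_lt_two_pow h1] at h
  exact absurd h (by simp)

/-- There is no 6-clique inside `wMask`. -/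
theorem no_clique_W : NoClique 6 wMask := by
  intro K hK hmem hclq
  have hne : K.Nonempty := by rw [← Finset.card_pos]; omega
  set v := K.max' hne with hv
  have hvK : v ∈ K := Finset.max'_mem K hne
  have hv416 := lt_of_testBit_w (hmem v hvK)
  have htop := topCheck_all v hv416
  have hb : bitN wMask v = 1 := (testBit_iff_bitN _ _).1 (hmem v hvK)
  have hb' : Nat.mod (Nat.shiftRight wMask v) 2 = 1 := hb
  have hor : (Nat.beq (Nat.mod (Nat.shiftRight wMask v) 2) 0 ||
      nc 5 (Nat.land (Nat.mod wMask (Nat.pow 2 v)) (row v))) = true := htop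
  rw [hb'] at hor
  have hnc : nc 5 (Nat.land (Nat.mod wMask (Nat.pow 2 v)) (row v)) = true := by
    simpa using hor
  refine nc_sound 5 _ hnc (K.erase v) ?_ ?_ ?_
  · rw [Finset.card_erase_of_mem hvK, hK]
  · intro u hu
    have hne' : u ≠ v := Finset.ne_of_mem_erase hu
    have huK : u ∈ K := Finset.mem_of_mem_erase hu
    have hle : u ≤ v := Finset.le_max' K u huK
    have hlt : u < v := lt_of_le_of_ne hle hne'
    have e : Nat.land (Nat.mod wMask (Nat.pow 2 v)) (row v) = (wMask % 2 ^ v) &&& row v := rfl
    rw [e, Nat.testBit_and, Nat.testBit_mod_two_pow, hmem u huK, hclq v hvK u huK (Ne.symm hne')]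
    simp [hlt]
  · intro u hu w hw huw
    exact hclq u (Finset.mem_of_mem_erase hu) w (Finset.mem_of_mem_erase hw) huw

theorem nc_N : nc 5 nMask = true := by decide +kernel

/-- There is no 5-clique inside `nMask`. -/
theorem no_clique_N : NoClique 5 nMask := nc_sound 5 _ nc_N

/-- The bit masks `row` and the numbers `adjN` agree. -/
theorem row_testBit_iff {u v : Nat} (hv : v < 416) : (row u).testBit v = true ↔ adjN u v = 1 := by
  have e : row u = (adjTable >>> (416 * u)) % 2 ^ 416 := rfl
  have e2 : adjN u v = bitN adjTable (416 * u + v) := rfl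
  rw [e, Nat.testBit_mod_two_pow, Nat.testBit_shiftRight, e2, ← testBit_iff_bitN]
  simp [hv]

/-- Membership in `N` implies membership in `W`. -/
theorem mem_W_of_mem_N {v : Nat} (h : nMask.testBit v = true) : wMask.testBit v = true := by
  have e : nMask = nMask &&& wMask := nMask_sub.symm
  rw [e, Nat.testBit_and] at h
  simp only [Bool.and_eq_true] at h
  exact h.2

end Vale.Agent.helper9.Borsuk
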