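import Mathlib

/-!
Abstract embedding: from a real symmetric matrix with a quadratic relation, a rank count for the
associated idempotent matrix, and a family of points in a Euclidean space of dimension 63.
-/

open Matrix WithLp

namespace Vale.Agent.helper9.Borsuk

section abstract_part

variable {ι : Type} [Fintype ι] [DecidableEq ι]

/-- The all ones matrix. -/
noncomputable def JJ (ι : Type) : Matrix ι ι ℝ := fun _ _ => 1

/-- The idempotent matrix attached to `A`. -/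
noncomputable def PP (A : Matrix ι ι ℝ) : Matrix ι ι ℝ :=
  (1 / 6 : ℝ) • (1 : Matrix ι ι ℝ) + (1 / 24 : ℝ) • A - (1 / 96 : ℝ) • JJ ι

theorem PP_apply (A : Matrix ι ι ℝ) (x y : ι) :
    PP A x y = (if x = y then 1 / 6 else 0) + A x y / 24 - 1 / 96 := by
  simp only [PP, Matrix.sub_apply, Matrix.add_apply, Matrix.smul_apply, Matrix.one_apply, JJ,
    smul_eq_mul]
  split <;> ring

theorem PP_sq (A : Matrix ι ι ℝ)
    (hAA : A * A = (80 : ℝ) • (1 : Matrix ι ι ℝ) + (16 : ℝ) • A + (20 : ℝ) • JJ ι)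
    (hAJ : A * JJ ι = (100 : ℝ) • JJ ι) (hJA : JJ ι * A = (100 : ℝ) • JJ ι)
    (hJJ : JJ ι * JJ ι = (416 : ℝ) • JJ ι) : PP A * PP A = PP A := by
  unfold PP
  simp only [add_mul, sub_mul, mul_add, mul_sub, smul_mul_assoc, mul_smul_comm, one_mul, mul_one,
    hAA, hAJ, hJA, hJJ]
  module

theorem PP_symm (A : Matrix ι ι ℝ) (hsymm : ∀ x y, A x y = A y x) (x y : ι) :
    PP A x y = PP A y x := by
  rw [PP_apply, PP_apply, hsymm x y]
  by_cases h : x = y
  · subst h; rfl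
  · rw [if_neg h, if_neg (Ne.symm h)]

/-- The linear map of the idempotent matrix. -/
noncomputable def PL (A : Matrix ι ι ℝ) : EuclideanSpace ℝ ι →ₗ[ℝ] EuclideanSpace ℝ ι :=
  Matrix.toEuclideanLin (PP A)

theorem PL_toLp (A : Matrix ι ι ℝ) (g : ι → ℝ) :
    PL A (toLp 2 g) = toLp 2 (PP A *ᵥ g) := rfl

theorem PL_idem (A : Matrix ι ι ℝ) (h : PP A * PP A = PP A) (v : EuclideanSpace ℝ ι) :
    PL A (PL A v) = PL A v := by
  obtain ⟨g, rfl⟩ : ∃ g, v = toLp 2 g := ⟨ofLp v, rfl⟩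
  rw [PL_toLp, PL_toLp, Matrix.mulVec_mulVec, h]

theorem PL_isProj (A : Matrix ι ι ℝ) (h : PP A * PP A = PP A) :
    LinearMap.IsProj (LinearMap.range (PL A)) (PL A) := by
  refine ⟨fun x => LinearMap.mem_range_self _ x, ?_⟩
  rintro _ ⟨y, rfl⟩
  exact PL_idem A h y

theorem finrank_range_PL (A : Matrix ι ι ℝ) (h : PP A * PP A = PP A)
    (hdiag : ∀ x, A x x = 0) (hcard : Fintype.card ι = 416) :
    Module.finrank ℝ (LinearMap.range (PL A)) = 65 := by
  have h1 := (PL_isProj A h).trace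
  have h2 : LinearMap.trace ℝ (EuclideanSpace ℝ ι) (PL A) = Matrix.trace (PP A) := by
    unfold PL
    rw [Matrix.toEuclideanLin_eq_toLin_orthonormal]
    exact Matrix.trace_toLin_eq _ _
  have h3 : Matrix.trace (PP A) = 65 := by
    unfold Matrix.trace
    simp only [Matrix.diag_apply, PP_apply, hdiag, if_true]
    rw [Finset.sum_const, Finset.card_univ, hcard]
    norm_num
  rw [h2, h3] at h1
  have h4 : ((Module.finrank ℝ (LinearMap.range (PL A)) : ℕ) : ℝ) = (65 : ℕ) := by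
    rw [← h1]; norm_num
  exact_mod_cast h4

theorem inner_toLp (g h : ι → ℝ) :
    inner ℝ (toLp 2 g : EuclideanSpace ℝ ι) (toLp 2 h) = ∑ x, g x * h x := by
  rw [PiLp.inner_apply]
  apply Finset.sum_congr rfl
  intro x _
  simp [mul_comm]

/-- A vector fixed by the idempotent matrix. -/
theorem PP_fix (A : Matrix ι ι ℝ) (g : ι → ℝ) (h1 : A *ᵥ g = (20 : ℝ) • g) (h2 : ∑ x, g x = 0) :
    PP A *ᵥ g = g := by
  unfold PP
  rw [Matrix.sub_mulVec, Matrix.add_mulVec, Matrix.smul_mulVec, Matrix.smul_mulVec,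
    Matrix.smul_mulVec, Matrix.one_mulVec, h1]
  have hJ : JJ ι *ᵥ g = 0 := by
    ext x
    simp [Matrix.mulVec, dotProduct, JJ, h2]
  rw [hJ]
  ext x
  simp only [Pi.sub_apply, Pi.add_apply, Pi.smul_apply, smul_eq_mul, Pi.zero_apply]
  ring

theorem inner_row (A : Matrix ι ι ℝ) (hsymm : ∀ x y, A x y = A y x) (x : ι) (g : ι → ℝ) :
    inner ℝ (toLp 2 (PP A x) : EuclideanSpace ℝ ι) (toLp 2 g) = (PP A *ᵥ g) x := by
  rw [inner_toLp]
  rfl

theorem row_fix (A : Matrix ι ι ℝ) (hsymm : ∀ x y, A x y = A y x) (h : PP A * PP A = PP A) (x : ι) :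
    PP A *ᵥ (PP A x) = PP A x := by
  ext y
  have := congrFun (congrFun h x) y
  rw [Matrix.mul_apply] at this
  rw [← this]
  simp only [Matrix.mulVec, dotProduct]
  apply Finset.sum_congr rfl
  intro z _
  rw [PP_symm A hsymm y z]
  ring

/-- The main embedding statement. -/
theorem embed_core (A : Matrix ι ι ℝ) (hsymm : ∀ x y, A x y = A y x) (hdiag : ∀ x, A x x = 0)
    (hAA : A * A = (80 : ℝ) • (1 : Matrix ι ι ℝ) + (16 : ℝ) • A + (20 : ℝ) • JJ ι)
    (hAJ : A * JJ ι = (100 : ℝ) • JJ ι) (hJA : JJ ι * A = (100 : ℝ) • JJ ι)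
    (hcard : Fintype.card ι = 416)
    (fa fb Y : ι → ℝ)
    (hfa : A *ᵥ fa = (20 : ℝ) • fa) (hfb : A *ᵥ fb = (20 : ℝ) • fb) (hY : A *ᵥ Y = (20 : ℝ) • Y)
    (sfa : ∑ x, fa x = 0) (sfb : ∑ x, fb x = 0) (sY : ∑ x, Y x = 0)
    (iaa : ∑ x, fa x * fa x = 64) (ibb : ∑ x, fb x * fb x = 64) (iab : ∑ x, fa x * fb x = 32)
    (iYa : ∑ x, Y x * fa x = 0) (iYb : ∑ x, Y x * fb x = 0) (iYY : ∑ x, Y x * Y x = 1248)
    (τ : ℝ) :
    ∃ (pt : {x : ι // fa x = 0 ∧ fb x = 0} → EuclideanSpace ℝ (Fin 63))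
      (zz : EuclideanSpace ℝ (Fin 63)),
      (∀ x y, x ≠ y → dist (pt x) (pt y) ^ 2 = 5 / 16 - 2 * (A x.1 y.1 / 24 - 1 / 96)) ∧
      (∀ x, dist zz (pt x) ^ 2 = 1248 * τ ^ 2 - 2 * τ * Y x.1 + 5 / 32) := by
  classical
  have hJJ : JJ ι * JJ ι = (416 : ℝ) • JJ ι := by
    ext x y
    simp [Matrix.mul_apply, JJ, hcard]
  have hP := PP_sq A hAA hAJ hJA hJJ
  set V := LinearMap.range (PL A) with hV
  have hfinV : Module.finrank ℝ V = 65 := finrank_range_PL A hP hdiag hcard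
  have memV : ∀ g : ι → ℝ, PP A *ᵥ g = g → (toLp 2 g : EuclideanSpace ℝ ι) ∈ V := by
    intro g hg
    refine ⟨toLp 2 g, ?_⟩
    rw [PL_toLp, hg]
  have fixa := PP_fix A fa hfa sfa
  have fixb := PP_fix A fb hfb sfb
  have fixY := PP_fix A Y hY sY
  let a : EuclideanSpace ℝ ι := toLp 2 fa
  let b : EuclideanSpace ℝ ι := toLp 2 fb
  have haa : inner ℝ a a = (64 : ℝ) := by rw [inner_toLp, iaa]
  have hbb : inner ℝ b b = (64 : ℝ) := by rw [inner_toLp, ibb]
  have hab : inner ℝ a b = (32 : ℝ) := by rw [inner_toLp, iab]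
  have hba : inner ℝ b a = (32 : ℝ) := by rw [real_inner_comm, hab]
  have hli : LinearIndependent ℝ ![a, b] := by
    rw [LinearIndependent.pair_iff]
    intro s t hst
    have e1 : inner ℝ a (s • a + t • b) = (0 : ℝ) := by rw [hst, inner_zero_right]
    have e2 : inner ℝ b (s • a + t • b) = (0 : ℝ) := by rw [hst, inner_zero_right]
    rw [inner_add_right, inner_smul_right, inner_smul_right, haa, hab] at e1
    rw [inner_add_right, inner_smul_right, inner_smul_right, hba, hbb] at e2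
    constructor <;> linarith
  set S : Submodule ℝ (EuclideanSpace ℝ ι) := Submodule.span ℝ (Set.range ![a, b]) with hS
  have hfinS : Module.finrank ℝ S = 2 := by
    rw [hS, finrank_span_eq_card hli]
    simp
  have hSV : S ≤ V := by
    rw [hS, Submodule.span_le]
    rintro _ ⟨i, rfl⟩
    fin_cases i
    · exact memV fa fixa
    · exact memV fb fixb
  have hfinV' : Module.finrank ℝ ((Sᗮ ⊓ V : Submodule ℝ (EuclideanSpace ℝ ι))) = 63 :=
    Submodule.finrank_add_inf_finrank_orthogonal' hSV (by rw [hfinS, hfinV])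
  set V' : Submodule ℝ (EuclideanSpace ℝ ι) := Sᗮ ⊓ V with hV'
  have memV' : ∀ w : EuclideanSpace ℝ ι, w ∈ V → inner ℝ a w = (0 : ℝ) → inner ℝ b w = (0 : ℝ) →
      w ∈ V' := by
    intro w hw h1 h2
    refine ⟨?_, hw⟩
    rw [SetLike.mem_coe, Submodule.mem_orthogonal]
    intro u hu
    have : S ≤ (Submodule.span ℝ {w})ᗮ := by
      rw [hS, Submodule.span_le]
      rintro _ ⟨i, rfl⟩
      rw [SetLike.mem_coe, Submodule.mem_orthogonal_singleton_iff_inner_left]
      fin_cases i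
      · exact h1
      · exact h2
    have h3 := this hu
    rw [Submodule.mem_orthogonal_singleton_iff_inner_left] at h3
    exact h3
  let φ : V' ≃ₗᵢ[ℝ] EuclideanSpace ℝ (Fin 63) :=
    ((stdOrthonormalBasis ℝ V').reindex (finCongr hfinV')).repr
  -- the points
  let vx : ι → EuclideanSpace ℝ ι := fun x => toLp 2 (PP A x)
  have hvxmem : ∀ x : {x : ι // fa x = 0 ∧ fb x = 0}, vx x.1 ∈ V' := by
    intro x
    apply memV'
    · exact memV _ (row_fix A hsymm hP x.1)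
    · rw [real_inner_comm]
      show inner ℝ (toLp 2 (PP A x.1) : EuclideanSpace ℝ ι) (toLp 2 fa) = 0
      rw [inner_row A hsymm, fixa, x.2.1]
    · rw [real_inner_comm]
      show inner ℝ (toLp 2 (PP A x.1) : EuclideanSpace ℝ ι) (toLp 2 fb) = 0
      rw [inner_row A hsymm, fixb, x.2.2]
  let yv : EuclideanSpace ℝ ι := toLp 2 Y
  have hyv_a : inner ℝ a yv = (0 : ℝ) := by
    rw [real_inner_comm]
    show inner ℝ (toLp 2 Y : EuclideanSpace ℝ ι) (toLp 2 fa) = 0
    rw [inner_toLp, iYa]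
  have hyv_b : inner ℝ b yv = (0 : ℝ) := by
    rw [real_inner_comm]
    show inner ℝ (toLp 2 Y : EuclideanSpace ℝ ι) (toLp 2 fb) = 0
    rw [inner_toLp, iYb]
  have hyvmem : τ • yv ∈ V' := by
    apply memV'
    · exact V.smul_mem _ (memV Y fixY)
    · rw [inner_smul_right, hyv_a, mul_zero]
    · rw [inner_smul_right, hyv_b, mul_zero]
  -- inner products
  have hvv : ∀ x y, inner ℝ (vx x) (vx y) = PP A x y := by
    intro x y
    show inner ℝ (toLp 2 (PP A x) : EuclideanSpace ℝ ι) (toLp 2 (PP A y)) = _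
    rw [inner_row A hsymm, row_fix A hsymm hP y, PP_symm A hsymm]
  have hvy : ∀ x, inner ℝ (vx x) yv = Y x := by
    intro x
    show inner ℝ (toLp 2 (PP A x) : EuclideanSpace ℝ ι) (toLp 2 Y) = _
    rw [inner_row A hsymm, fixY]
  have hyy : inner ℝ yv yv = (1248 : ℝ) := by
    show inner ℝ (toLp 2 Y : EuclideanSpace ℝ ι) (toLp 2 Y) = _
    rw [inner_toLp, iYY]
  refine ⟨fun x => φ ⟨vx x.1, hvxmem x⟩, φ ⟨τ • yv, hyvmem⟩, ?_, ?_⟩
  · intro x y hxy
    rw [φ.dist_map, Subtype.dist_eq, dist_eq_norm]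
    show ‖vx x.1 - vx y.1‖ ^ 2 = _
    rw [norm_sub_sq_real, ← real_inner_self_eq_norm_sq, ← real_inner_self_eq_norm_sq, hvv, hvv, hvv,
      PP_apply, PP_apply, PP_apply, hdiag, hdiag, if_pos rfl, if_pos rfl,
      if_neg (fun h => hxy (Subtype.ext h))]
    ring
  · intro x
    rw [φ.dist_map, Subtype.dist_eq, dist_eq_norm]
    show ‖τ • yv - vx x.1‖ ^ 2 = _
    rw [norm_sub_sq_real, ← real_inner_self_eq_norm_sq, ← real_inner_self_eq_norm_sq,
      inner_smul_left, inner_smul_right, inner_smul_left, hyy, real_inner_comm, hvy, hvv,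
      PP_apply, hdiag, if_pos rfl]
    simp only [conj_trivial]
    ring

end abstract_part

end Vale.Agent.helper9.Borsuk
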