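import Vale.Agent.helper9.Borsuk.Cliques
import Vale.Agent.helper9.Borsuk.Geom
import Vale.Agent.helper9.Borsuk.Abstract

/-!
Instantiation of the abstract embedding with the data, and the resulting counterexample.
-/

open Matrix

namespace Vale.Agent.helper9.Borsuk

attribute [local irreducible] adjTable wMask nMask faPacked fbPacked yPacked adjN

/-- The adjacency matrix over the reals. -/
noncomputable def AR : Matrix (Fin 416) (Fin 416) ℝ := fun x y => (adjN x y : ℝ)

theorem sum_fin (h : Nat → ℝ) : ∑ x : Fin 416, h x = ∑ i ∈ Finset.range 416, h i :=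
  Fin.sum_univ_eq_sum_range h 416

theorem adj_sq {x z : Nat} : adjN x z * adjN x z = adjN x z := by
  have := adjN_lt x z
  have h : adjN x z = 0 ∨ adjN x z = 1 := by omega
  rcases h with h | h <;> rw [h]

theorem row_sum {x : Nat} (hx : x < 416) : ∑ z ∈ Finset.range 416, adjN x z = 100 := by
  have h := srg_identity hx hx
  rw [adj_irrefl hx, if_pos rfl] at h
  rw [← show 80 + 16 * 0 + 20 = 100 from rfl, ← h]
  apply Finset.sum_congr rfl
  intro z hz
  rw [adj_symm (Finset.mem_range.1 hz) hx, adj_sq]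

theorem AR_symm (x y : Fin 416) : AR x y = AR y x := by
  show ((adjN x y : Nat) : ℝ) = (adjN y x : Nat)
  rw [adj_symm x.2 y.2]

theorem AR_diag (x : Fin 416) : AR x x = 0 := by
  show ((adjN x x : Nat) : ℝ) = 0
  rw [adj_irrefl x.2]; simp

theorem AR_sq : AR * AR = (80 : ℝ) • (1 : Matrix (Fin 416) (Fin 416) ℝ) + (16 : ℝ) • AR +
    (20 : ℝ) • JJ (Fin 416) := by
  ext x y
  have h := srg_identity x.2 y.2
  have h2 : (∑ z ∈ Finset.range 416, ((adjN x z * adjN z y : Nat) : ℝ)) =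
      (((if (x : Nat) = y then 80 else 0) + 16 * adjN x y + 20 : Nat) : ℝ) := by
    rw [← h]; push_cast; rfl
  rw [Matrix.mul_apply]
  have h3 : ∑ z : Fin 416, AR x z * AR z y =
      ∑ z ∈ Finset.range 416, ((adjN x z * adjN z y : Nat) : ℝ) := by
    rw [← sum_fin (fun z => ((adjN x z * adjN z y : Nat) : ℝ))]
    apply Finset.sum_congr rfl
    intro z _
    simp [AR]
  rw [h3, h2]
  simp only [Matrix.add_apply, Matrix.smul_apply, Matrix.one_apply, JJ, AR, smul_eq_mul]
  by_cases hxy : x = y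
  · subst hxy; simp
  · have : (x : Nat) ≠ y := fun h => hxy (Fin.ext h)
    simp [hxy, this]

theorem AR_J : AR * JJ (Fin 416) = (100 : ℝ) • JJ (Fin 416) := by
  ext x y
  rw [Matrix.mul_apply]
  have h3 : ∑ z : Fin 416, AR x z * JJ (Fin 416) z y =
      ∑ z ∈ Finset.range 416, ((adjN x z : Nat) : ℝ) := by
    rw [← sum_fin (fun z => ((adjN x z : Nat) : ℝ))]
    apply Finset.sum_congr rfl
    intro z _
    simp [AR, JJ]
  rw [h3, ← Nat.cast_sum, row_sum x.2]
  simp [JJ]

theorem J_AR : JJ (Fin 416) * AR = (100 : ℝ) • JJ (Fin 416) := by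
  ext x y
  rw [Matrix.mul_apply]
  have h3 : ∑ z : Fin 416, JJ (Fin 416) x z * AR z y =
      ∑ z ∈ Finset.range 416, ((adjN y z : Nat) : ℝ) := by
    rw [← sum_fin (fun z => ((adjN y z : Nat) : ℝ))]
    apply Finset.sum_congr rfl
    intro z _
    simp only [AR, JJ, one_mul]
    rw [adj_symm z.2 y.2]
  rw [h3, ← Nat.cast_sum, row_sum y.2]
  simp [JJ]

/-- Shifted real vector. -/
noncomputable def shiftV (u : Nat → Nat) (s : ℝ) (x : Fin 416) : ℝ := (u x : ℝ) - s

theorem sum_const_range (n : Nat) (s : ℝ) : ∑ _i ∈ Finset.range n, s = (n : ℝ) * s := by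
  rw [Finset.sum_const, Finset.card_range, nsmul_eq_mul]

theorem shift_sum (u : Nat → Nat) (s : ℝ) :
    ∑ x, shiftV u s x = ((sumTo u 416 : Nat) : ℝ) - 416 * s := by
  unfold shiftV
  rw [sum_fin (fun i => (u i : ℝ) - s), Finset.sum_sub_distrib, sumTo_eq, sum_const_range,
    Nat.cast_sum]
  norm_num

theorem shift_inner (u v : Nat → Nat) (s t : ℝ) :
    ∑ x, shiftV u s x * shiftV v t x =
      ((sumTo (fun z => Nat.mul (u z) (v z)) 416 : Nat) : ℝ) - t * ((sumTo u 416 : Nat) : ℝ)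
        - s * ((sumTo v 416 : Nat) : ℝ) + 416 * s * t := by
  unfold shiftV
  rw [sum_fin (fun i => ((u i : ℝ) - s) * ((v i : ℝ) - t))]
  rw [sumTo_eq, sumTo_eq, sumTo_eq]
  have : ∀ i, ((u i : ℝ) - s) * ((v i : ℝ) - t) =
      ((Nat.mul (u i) (v i) : Nat) : ℝ) - t * (u i : ℝ) - s * (v i : ℝ) + s * t := by
    intro i
    show _ = ((u i * v i : Nat) : ℝ) - _ - _ + _
    push_cast
    ring
  simp_rw [this]
  rw [Finset.sum_add_distrib, Finset.sum_sub_distrib, Finset.sum_sub_distrib, Nat.cast_sum,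
    Nat.cast_sum, Nat.cast_sum, Finset.mul_sum, Finset.mul_sum, sum_const_range]
  norm_num
  ring

theorem shift_eig (g : Nat → Nat) (c : Nat) (s : ℝ) (hc : (c : ℝ) = 80 * s)
    (h : chkEig g c = true) : AR *ᵥ shiftV g s = (20 : ℝ) • shiftV g s := by
  ext x
  have h1 := Nat.eq_of_beq_eq_true (allBelow_spec _ 416 h x x.2)
  rw [sumTo_eq] at h1
  have h2 : (∑ z ∈ Finset.range 416, ((Nat.mul (adjN x z) (g z) : Nat) : ℝ)) =
      ((Nat.add (Nat.mul 20 (g x)) c : Nat) : ℝ) := by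
    rw [← Nat.cast_sum, h1]
  have h3 : (Nat.add (Nat.mul 20 (g x)) c : Nat) = 20 * g x + c := rfl
  rw [h3] at h2
  simp only [Matrix.mulVec, dotProduct, Pi.smul_apply, smul_eq_mul]
  have h4 : ∑ z : Fin 416, AR x z * shiftV g s z =
      ∑ z ∈ Finset.range 416, (((Nat.mul (adjN x z) (g z) : Nat) : ℝ) - ((adjN x z : Nat) : ℝ) * s) := by
    rw [← sum_fin (fun z => ((Nat.mul (adjN x z) (g z) : Nat) : ℝ) - ((adjN x z : Nat) : ℝ) * s)]
    apply Finset.sum_congr rfl
    intro z _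
    show ((adjN x z : Nat) : ℝ) * ((g z : ℝ) - s) = ((adjN x z * g z : Nat) : ℝ) - _
    push_cast
    ring
  rw [h4, Finset.sum_sub_distrib, h2, ← Finset.sum_mul, ← Nat.cast_sum, row_sum x.2]
  unfold shiftV
  push_cast
  rw [hc]
  ring

/-- The first word. -/
noncomputable def gA : Fin 416 → ℝ := shiftV fa 1
/-- The second word. -/
noncomputable def gB : Fin 416 → ℝ := shiftV fb 1
/-- The vector `Y`. -/
noncomputable def gY : Fin 416 → ℝ := shiftV yy 3

theorem gA_eig : AR *ᵥ gA = (20 : ℝ) • gA := shift_eig fa 80 1 (by norm_num) chkEig_fa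
theorem gB_eig : AR *ᵥ gB = (20 : ℝ) • gB := shift_eig fb 80 1 (by norm_num) chkEig_fb
theorem gY_eig : AR *ᵥ gY = (20 : ℝ) • gY := shift_eig yy 240 3 (by norm_num) chkEig_yy

theorem gA_sum : ∑ x, gA x = 0 := by
  unfold gA; rw [shift_sum, sum_fa]; norm_num
theorem gB_sum : ∑ x, gB x = 0 := by
  unfold gB; rw [shift_sum, sum_fb]; norm_num
theorem gY_sum : ∑ x, gY x = 0 := by
  unfold gY; rw [shift_sum, sum_yy]; norm_num

theorem gAA : ∑ x, gA x * gA x = 64 := by
  unfold gA; rw [shift_inner, sum_faa, sum_fa]; norm_num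
theorem gBB : ∑ x, gB x * gB x = 64 := by
  unfold gB; rw [shift_inner, sum_fbb, sum_fb]; norm_num
theorem gAB : ∑ x, gA x * gB x = 32 := by
  unfold gA gB; rw [shift_inner, sum_fab, sum_fa, sum_fb]; norm_num
theorem gYA : ∑ x, gY x * gA x = 0 := by
  unfold gY gA; rw [shift_inner, sum_yya, sum_yy, sum_fa]; norm_num
theorem gYB : ∑ x, gY x * gB x = 0 := by
  unfold gY gB; rw [shift_inner, sum_yyb, sum_yy, sum_fb]; norm_num
theorem gYY : ∑ x, gY x * gY x = 1248 := by
  unfold gY; rw [shift_inner, sum_yyy, sum_yy]; norm_num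

/-- Values of the vectors on `W`. -/
theorem vals_on_W {x : Nat} (hx : x < 416) (hw : wMask.testBit x = true) :
    fa x = 1 ∧ fb x = 1 ∧ (nMask.testBit x = true → yy x = 6) ∧ (nMask.testBit x ≠ true → yy x = 2) := by
  have h := allBelow_spec _ 416 chkVals_true x hx
  have hb := (testBit_iff_bitN _ _).1 hw
  have h' : (Nat.beq (bitN wMask x) 0 ||
      (Nat.beq (fa x) 1 && (Nat.beq (fb x) 1 &&
        cond (Nat.beq (bitN nMask x) 1) (Nat.beq (yy x) 6) (Nat.beq (yy x) 2)))) = true := h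
  rw [hb] at h'
  have h'' : (Nat.beq (fa x) 1 && (Nat.beq (fb x) 1 &&
        cond (Nat.beq (bitN nMask x) 1) (Nat.beq (yy x) 6) (Nat.beq (yy x) 2))) = true := by
    simpa using h'
  rw [Bool.and_eq_true, Bool.and_eq_true] at h''
  obtain ⟨h1, h2, h3⟩ := h''
  refine ⟨Nat.eq_of_beq_eq_true h1, Nat.eq_of_beq_eq_true h2, ?_, ?_⟩
  · intro hn
    rw [(testBit_iff_bitN _ _).1 hn] at h3
    exact Nat.eq_of_beq_eq_true h3
  · intro hn
    have hn' : bitN nMask x ≠ 1 := fun h => hn ((testBit_iff_bitN _ _).2 h)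
    have : Nat.beq (bitN nMask x) 1 = false := by
      cases hbb : Nat.beq (bitN nMask x) 1 with
      | false => rfl
      | true => exact absurd (Nat.eq_of_beq_eq_true hbb) hn'
    rw [this] at h3
    exact Nat.eq_of_beq_eq_true h3

/-- The labels of the 321 points. -/
abbrev Lab := Option {x : Fin 416 // wMask.testBit x = true}

theorem bitN_eq_ite (m x : Nat) : bitN m x = if m.testBit x = true then 1 else 0 := by
  by_cases h : m.testBit x = true
  · rw [if_pos h]; exact (testBit_iff_bitN _ _).1 h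
  · rw [if_neg h]
    have h1 : bitN m x ≠ 1 := fun h' => h ((testBit_iff_bitN _ _).2 h')
    have h2 : bitN m x < 2 := Nat.mod_lt _ (by norm_num)
    omega

theorem card_Lab : Fintype.card Lab = 321 := by
  rw [Fintype.card_option, Fintype.card_subtype, Finset.card_filter]
  have h := card_w
  rw [sumTo_eq, ← Fin.sum_univ_eq_sum_range] at h
  simp_rw [bitN_eq_ite] at h
  rw [h]

/-- A clique of labels has at most five elements. -/
theorem clique_bound (K : Finset Lab)
    (h1 : ∀ x y : {x : Fin 416 // wMask.testBit x = true}, some x ∈ K → some y ∈ K → x ≠ y →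
      adjN x.1 y.1 = 1)
    (h2 : ∀ x : {x : Fin 416 // wMask.testBit x = true}, none ∈ K → some x ∈ K →
      nMask.testBit x.1 = true) : K.card ≤ 5 := by
  classical
  by_contra hcard
  push Not at hcard
  let f : {x : Fin 416 // wMask.testBit x = true} → Nat := fun x => x.1
  have hf : Function.Injective f := fun x y h => Subtype.ext (Fin.ext h)
  let K1 : Finset Nat := K.eraseNone.image f
  have hK1 : K1.card = (K.erase none).card := by
    rw [Finset.card_image_of_injective _ hf, Finset.card_eraseNone_eq_card_erase]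
  have hK1mem : ∀ v ∈ K1, ∃ x, some x ∈ K ∧ (x.1 : Nat) = v := by
    intro v hv
    obtain ⟨x, hx, rfl⟩ := Finset.mem_image.1 hv
    exact ⟨x, Finset.mem_eraseNone.1 hx, rfl⟩
  have hrow : ∀ u ∈ K1, ∀ v ∈ K1, u ≠ v → (row u).testBit v = true := by
    intro u hu v hv huv
    obtain ⟨x, hx, rfl⟩ := hK1mem u hu
    obtain ⟨y, hy, rfl⟩ := hK1mem v hv
    rw [row_testBit_iff y.1.2]
    refine h1 x y hx hy ?_
    rintro rfl
    exact huv rfl
  by_cases hn : none ∈ K
  · have hc : (K.erase none).card = K.card - 1 := Finset.card_erase_of_mem hn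
    obtain ⟨K2, hK2, hK2c⟩ := Finset.exists_subset_card_eq (s := K1) (n := 5) (by omega)
    refine no_clique_N K2 hK2c ?_ ?_
    · intro v hv
      obtain ⟨x, hx, rfl⟩ := hK1mem v (hK2 hv)
      exact h2 x hn hx
    · intro u hu v hv huv
      exact hrow u (hK2 hu) v (hK2 hv) huv
  · have hc : K.erase none = K := Finset.erase_eq_of_notMem hn
    rw [hc] at hK1
    obtain ⟨K2, hK2, hK2c⟩ := Finset.exists_subset_card_eq (s := K1) (n := 6) (by omega)
    refine no_clique_W K2 hK2c ?_ ?_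
    · intro v hv
      obtain ⟨x, hx, rfl⟩ := hK1mem v (hK2 hv)
      exact x.2
    · intro u hu v hv huv
      exact hrow u (hK2 hu) v (hK2 hv) huv

theorem witness_w : wMask.testBit 1 = true := by decide +kernel
theorem witness_n : nMask.testBit 1 = false := by decide +kernel

/-- The points indexed by labels. -/
def ptL {X : Type} (zz : X) (ptW : {x : Fin 416 // wMask.testBit x = true} → X) : Lab → X
  | none => zz
  | some x => ptW x

theorem gY_of_mem (x : {x : Fin 416 // wMask.testBit x = true}) (hn : nMask.testBit x.1 = true) :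
    gY x.1 = 3 := by
  obtain ⟨_, _, h3, _⟩ := vals_on_W x.1.2 x.2
  show ((yy x.1 : Nat) : ℝ) - 3 = 3
  rw [h3 hn]; norm_num

theorem gY_of_not_mem (x : {x : Fin 416 // wMask.testBit x = true})
    (hn : nMask.testBit x.1 ≠ true) : gY x.1 = -1 := by
  obtain ⟨_, _, _, h4⟩ := vals_on_W x.1.2 x.2
  show ((yy x.1 : Nat) : ℝ) - 3 = -1
  rw [h4 hn]; norm_num

theorem adjN_cases (u v : Nat) : adjN u v = 0 ∨ adjN u v = 1 := by
  have := adjN_lt u v
  omega

section assembly

variable {X : Type} [PseudoMetricSpace X]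
  (ptW : {x : Fin 416 // wMask.testBit x = true} → X) (zz : X) (τ : ℝ) (hτ : 0 < τ)
  (hdW : ∀ x y, x ≠ y → dist (ptW x) (ptW y) ^ 2 = 1 / 3 - ((adjN x.1 y.1 : Nat) : ℝ) / 12)
  (hdZ : ∀ x, dist zz (ptW x) ^ 2 = 1 / 3 - 2 * τ * (1 + gY x.1))

include hτ hdZ in
theorem bound_zw (x : {x : Fin 416 // wMask.testBit x = true}) :
    dist zz (ptW x) ^ 2 ≤ 1 / 3 := by
  rw [hdZ x]
  by_cases hn : nMask.testBit x.1 = true
  · rw [gY_of_mem x hn]; nlinarith
  · rw [gY_of_not_mem x hn]; nlinarith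

include hdW in
theorem bound_ww (x y : {x : Fin 416 // wMask.testBit x = true}) :
    dist (ptW x) (ptW y) ^ 2 ≤ 1 / 3 := by
  by_cases hxy : x = y
  · subst hxy; rw [dist_self]; norm_num
  · rw [hdW x y hxy]
    rcases adjN_cases x.1 y.1 with h | h <;> rw [h] <;> norm_num

include hτ hdW hdZ in
theorem bound_all (a b : Lab) : dist (ptL zz ptW a) (ptL zz ptW b) ^ 2 ≤ 1 / 3 := by
  rcases a with _ | x <;> rcases b with _ | y
  · show dist zz zz ^ 2 ≤ _
    rw [dist_self]; norm_num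
  · exact bound_zw ptW zz τ hτ hdZ y
  · show dist (ptW x) zz ^ 2 ≤ _
    rw [dist_comm]
    exact bound_zw ptW zz τ hτ hdZ x
  · exact bound_ww ptW hdW x y

include hdW hdZ in
theorem clique_of_close (K : Finset Lab)
    (hK : ∀ a ∈ K, ∀ b ∈ K, a ≠ b → dist (ptL zz ptW a) (ptL zz ptW b) ^ 2 < 1 / 3) :
    K.card ≤ 5 := by
  apply clique_bound K
  · intro x y hx hy hxy
    have hne : (some x : Lab) ≠ some y := fun h => hxy (Option.some.inj h)
    have h1 : dist (ptW x) (ptW y) ^ 2 < 1 / 3 := hK _ hx _ hy hne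
    rw [hdW x y hxy] at h1
    rcases adjN_cases (x.1 : Nat) (y.1 : Nat) with h3 | h3
    · rw [h3] at h1; norm_num at h1
    · exact h3
  · intro x hn hx
    have hne : (none : Lab) ≠ some x := by simp
    have h1 : dist zz (ptW x) ^ 2 < 1 / 3 := hK _ hn _ hx hne
    rw [hdZ x] at h1
    by_contra hnn
    rw [gY_of_not_mem x hnn] at h1
    norm_num at h1

include hτ hdW hdZ in
theorem assemble :
    (Set.range (ptL zz ptW)).Finite ∧ 0 < Metric.diam (Set.range (ptL zz ptW)) ∧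
      ¬ ∃ P : Fin 64 → Set X, Set.range (ptL zz ptW) = ⋃ i, P i ∧
        ∀ i, Metric.diam (P i) < Metric.diam (Set.range (ptL zz ptW)) := by
  have hDpos : 0 < Real.sqrt (1 / 3) := Real.sqrt_pos.2 (by norm_num)
  have hDsq : Real.sqrt (1 / 3) ^ 2 = 1 / 3 := Real.sq_sqrt (by norm_num)
  have hle : ∀ a b, dist (ptL zz ptW a) (ptL zz ptW b) ≤ Real.sqrt (1 / 3) := by
    intro a b
    exact Real.le_sqrt_of_sq_le (bound_all ptW zz τ hτ hdW hdZ a b)
  let x0 : {x : Fin 416 // wMask.testBit x = true} := ⟨⟨1, by norm_num⟩, witness_w⟩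
  have hwit : dist (ptL zz ptW none) (ptL zz ptW (some x0)) = Real.sqrt (1 / 3) := by
    have h1 : nMask.testBit (x0.1 : Nat) ≠ true := by
      show nMask.testBit 1 ≠ true
      rw [witness_n]; simp
    have h2 : dist zz (ptW x0) ^ 2 = 1 / 3 := by
      rw [hdZ x0, gY_of_not_mem x0 h1]; ring
    show dist zz (ptW x0) = _
    rw [← h2, Real.sqrt_sq dist_nonneg]
  have hcl : ∀ K : Finset Lab,
      (∀ a ∈ K, ∀ b ∈ K, a ≠ b → dist (ptL zz ptW a) (ptL zz ptW b) < Real.sqrt (1 / 3)) →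
      K.card ≤ 5 := by
    intro K hK
    apply clique_of_close ptW zz τ hdW hdZ K
    intro a ha b hb hab
    rw [← hDsq]
    exact pow_lt_pow_left₀ (hK a ha b hb hab) dist_nonneg (by norm_num)
  exact borsuk_abstract (ptL zz ptW) _ hDpos hle none (some x0) hwit 5 64
    (by rw [card_Lab]; norm_num) hcl

end assembly

theorem exists_tau : ∃ τ : ℝ, 0 < τ ∧ 1248 * τ ^ 2 = 17 / 96 - 2 * τ := by
  have hs222 : (Real.sqrt 222) ^ 2 = 222 := Real.sq_sqrt (by norm_num)
  have hs1 : 1 < Real.sqrt 222 := by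
    rw [Real.lt_sqrt (by norm_num)]; norm_num
  refine ⟨(-1 + Real.sqrt 222) / 1248, by apply div_pos <;> linarith, ?_⟩
  field_simp
  nlinarith [hs222]

theorem gA_gB_on_W (x : {x : Fin 416 // wMask.testBit x = true}) : gA x.1 = 0 ∧ gB x.1 = 0 := by
  obtain ⟨h1, h2, _, _⟩ := vals_on_W x.1.2 x.2
  constructor
  · show ((fa x.1 : Nat) : ℝ) - 1 = 0
    rw [h1]; norm_num
  · show ((fb x.1 : Nat) : ℝ) - 1 = 0
    rw [h2]; norm_num

/-- The main theorem on the set of 321 points. -/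
theorem main_dim63 :
    ∃ Y : Set (EuclideanSpace ℝ (Fin 63)), Y.Finite ∧ 0 < Metric.diam Y ∧
      ¬ ∃ P : Fin 64 → Set (EuclideanSpace ℝ (Fin 63)), Y = ⋃ i, P i ∧
        ∀ i, Metric.diam (P i) < Metric.diam Y := by
  obtain ⟨τ, hτpos, hτeq⟩ := exists_tau
  obtain ⟨pt, zz, hd1, hd2⟩ := embed_core AR AR_symm AR_diag AR_sq AR_J J_AR (by simp)
    gA gB gY gA_eig gB_eig gY_eig gA_sum gB_sum gY_sum gAA gBB gAB gYA gYB gYY τ
  let inc : {x : Fin 416 // wMask.testBit x = true} → {x : Fin 416 // gA x = 0 ∧ gB x = 0} :=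
    fun x => ⟨x.1, gA_gB_on_W x⟩
  have hdW : ∀ x y, x ≠ y → dist (pt (inc x)) (pt (inc y)) ^ 2 =
      1 / 3 - ((adjN x.1 y.1 : Nat) : ℝ) / 12 := by
    intro x y hxy
    have hne : inc x ≠ inc y := by
      intro h
      have h' : (inc x).1 = (inc y).1 := congrArg Subtype.val h
      exact hxy (Subtype.ext h')
    rw [hd1 (inc x) (inc y) hne]
    show 5 / 16 - 2 * (((adjN x.1 y.1 : Nat) : ℝ) / 24 - 1 / 96) = _
    ring
  have hdZ : ∀ x, dist zz (pt (inc x)) ^ 2 = 1 / 3 - 2 * τ * (1 + gY x.1) := by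
    intro x
    rw [hd2 (inc x)]
    show 1248 * τ ^ 2 - 2 * τ * gY x.1 + 5 / 32 = _
    rw [hτeq]
    ring
  have hfinal := assemble (fun x => pt (inc x)) zz τ hτpos hdW hdZ
  exact ⟨_, hfinal⟩

end Vale.Agent.helper9.Borsuk
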