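import Vale.Agent.helper9.Borsuk.Clique

/-!
Kernel checks of the linear algebra identities for the graph given by `adjTable`.
-/

namespace Vale.Agent.helper9.Borsuk

/-- Sum of `f i` for `i < n`, in a form that is cheap for kernel reduction. -/
def sumTo (f : Nat → Nat) (n : Nat) : Nat := Nat.rec 0 (fun i ih => Nat.add ih (f i)) n

theorem sumTo_eq (f : Nat → Nat) (n : Nat) : sumTo f n = ∑ i ∈ Finset.range n, f i := by
  induction n with
  | zero => rfl
  | succ n ih =>
    rw [Finset.sum_range_succ, ← ih]
    rfl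

/-- Adjacency as a number zero or one. -/
def adjN (x y : Nat) : Nat := Nat.mod (Nat.shiftRight adjTable (Nat.add (Nat.mul 416 x) y)) 2

/-- Row `z` of the adjacency matrix packed in base 4096. -/
def rowP (z : Nat) : Nat := sumTo (fun y => Nat.mul (adjN z y) (Nat.pow 4096 y)) 416

/-- The all ones vector packed in base 4096. -/
def unitP : Nat := sumTo (fun y => Nat.pow 4096 y) 416

/-- Symmetry and zero diagonal. -/
def chkSym : Bool :=
  allBelow (fun x => and (Nat.beq (adjN x x) 0)
    (allBelow (fun y => Nat.beq (adjN x y) (adjN y x)) 416)) 416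

/-- The quadratic identity, packed. -/
def chkSrg : Bool :=
  allBelow (fun x => Nat.beq (sumTo (fun z => Nat.mul (adjN x z) (rowP z)) 416)
    (Nat.add (Nat.mul 80 (Nat.pow 4096 x)) (Nat.add (Nat.mul 16 (rowP x)) (Nat.mul 20 unitP)))) 416

theorem chkSym_true : chkSym = true := by decide +kernel

theorem chkSrg_true : chkSrg = true := by decide +kernel

/-- Digit of the number `p`, with `5` bits per digit. -/
def dig (p x : Nat) : Nat := Nat.mod (Nat.shiftRight p (Nat.mul 5 x)) 32

/-- First word plus one. -/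
def fa (x : Nat) : Nat := dig faPacked x
/-- Second word plus one. -/
def fb (x : Nat) : Nat := dig fbPacked x
/-- The vector `Y` plus three. -/
def yy (x : Nat) : Nat := dig yPacked x

/-- Eigenvector identity for a shifted vector. -/
def chkEig (g : Nat → Nat) (c : Nat) : Bool :=
  allBelow (fun x => Nat.beq (sumTo (fun z => Nat.mul (adjN x z) (g z)) 416)
    (Nat.add (Nat.mul 20 (g x)) c)) 416

theorem chkEig_fa : chkEig fa 80 = true := by decide +kernel
theorem chkEig_fb : chkEig fb 80 = true := by decide +kernel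
theorem chkEig_yy : chkEig yy 240 = true := by decide +kernel

theorem sum_fa : sumTo fa 416 = 416 := by decide +kernel
theorem sum_fb : sumTo fb 416 = 416 := by decide +kernel
theorem sum_yy : sumTo yy 416 = 1248 := by decide +kernel
theorem sum_faa : sumTo (fun z => Nat.mul (fa z) (fa z)) 416 = 480 := by decide +kernel
theorem sum_fbb : sumTo (fun z => Nat.mul (fb z) (fb z)) 416 = 480 := by decide +kernel
theorem sum_fab : sumTo (fun z => Nat.mul (fa z) (fb z)) 416 = 448 := by decide +kernel
theorem sum_yya : sumTo (fun z => Nat.mul (yy z) (fa z)) 416 = 1248 := by decide +kernel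
theorem sum_yyb : sumTo (fun z => Nat.mul (yy z) (fb z)) 416 = 1248 := by decide +kernel
theorem sum_yyy : sumTo (fun z => Nat.mul (yy z) (yy z)) 416 = 4992 := by decide +kernel

/-- Bit of a mask. -/
def bitN (m x : Nat) : Nat := Nat.mod (Nat.shiftRight m x) 2

/-- Values of the vectors on `W` and `N`. -/
def chkVals : Bool :=
  allBelow (fun x => or (Nat.beq (bitN wMask x) 0)
    (and (Nat.beq (fa x) 1) (and (Nat.beq (fb x) 1)
      (cond (Nat.beq (bitN nMask x) 1) (Nat.beq (yy x) 6) (Nat.beq (yy x) 2))))) 416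

theorem chkVals_true : chkVals = true := by decide +kernel

/-- `N` is contained in `W`. -/
theorem nMask_sub : Nat.land nMask wMask = nMask := by decide +kernel

theorem card_w : sumTo (bitN wMask) 416 = 320 := by decide +kernel

theorem adjN_lt (x y : Nat) : adjN x y < 2 := Nat.mod_lt _ (by norm_num)

theorem adj_symm {x y : Nat} (hx : x < 416) (hy : y < 416) : adjN x y = adjN y x := by
  have h := allBelow_spec _ 416 chkSym_true x hx
  have h' : (Nat.beq (adjN x x) 0 && allBelow (fun y => Nat.beq (adjN x y) (adjN y x)) 416) = true := h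
  rw [Bool.and_eq_true] at h'
  exact Nat.eq_of_beq_eq_true (allBelow_spec _ 416 h'.2 y hy)

theorem adj_irrefl {x : Nat} (hx : x < 416) : adjN x x = 0 := by
  have h := allBelow_spec _ 416 chkSym_true x hx
  have h' : (Nat.beq (adjN x x) 0 && allBelow (fun y => Nat.beq (adjN x y) (adjN y x)) 416) = true := h
  rw [Bool.and_eq_true] at h'
  exact Nat.eq_of_beq_eq_true h'.1

/-- Uniqueness of digits. -/
theorem digit_unique (b : Nat) (n : Nat) : ∀ (f g : Nat → Nat), (∀ i, i < n → f i < b) →
    (∀ i, i < n → g i < b) →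
    (∑ i ∈ Finset.range n, f i * b ^ i = ∑ i ∈ Finset.range n, g i * b ^ i) →
    ∀ i, i < n → f i = g i := by
  induction n with
  | zero => intro f g _ _ _ i hi; omega
  | succ n ih =>
    intro f g hf hg h i hi
    have hb : 0 < b := lt_of_le_of_lt (Nat.zero_le _) (hf 0 (by omega))
    have key : ∀ u : Nat → Nat, ∑ j ∈ Finset.range (n + 1), u j * b ^ j =
        u 0 + b * ∑ j ∈ Finset.range n, u (j + 1) * b ^ j := by
      intro u
      rw [Finset.sum_range_succ', Finset.mul_sum, add_comm]
      congr 1
      · simp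
      · apply Finset.sum_congr rfl
        intro j _
        ring
    rw [key f, key g] at h
    have h0 : f 0 = g 0 := by
      have h1 := congrArg (· % b) h
      simp only [Nat.add_mul_mod_self_left] at h1
      rwa [Nat.mod_eq_of_lt (hf 0 (by omega)), Nat.mod_eq_of_lt (hg 0 (by omega))] at h1
    have h2 : ∑ j ∈ Finset.range n, f (j + 1) * b ^ j = ∑ j ∈ Finset.range n, g (j + 1) * b ^ j := by
      rw [h0] at h
      exact Nat.eq_of_mul_eq_mul_left hb (Nat.add_left_cancel h)
    cases i with
    | zero => exact h0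
    | succ i =>
      exact ih (fun j => f (j + 1)) (fun j => g (j + 1)) (fun j hj => hf _ (by omega))
        (fun j hj => hg _ (by omega)) h2 i (by omega)

theorem swap_sum (n b : Nat) (a : Nat → Nat → Nat) (x : Nat) :
    ∑ z ∈ Finset.range n, a x z * (∑ y ∈ Finset.range n, a z y * b ^ y) =
      ∑ y ∈ Finset.range n, (∑ z ∈ Finset.range n, a x z * a z y) * b ^ y := by
  simp_rw [Finset.mul_sum, Finset.sum_mul]
  rw [Finset.sum_comm]
  apply Finset.sum_congr rfl; intro y _
  apply Finset.sum_congr rfl; intro z _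
  ring

theorem rhs_sum (n b : Nat) (a : Nat → Nat → Nat) (x : Nat) (hx : x < n) :
    80 * b ^ x + (16 * (∑ y ∈ Finset.range n, a x y * b ^ y) + 20 * ∑ y ∈ Finset.range n, b ^ y) =
      ∑ y ∈ Finset.range n, ((if x = y then 80 else 0) + 16 * a x y + 20) * b ^ y := by
  simp_rw [add_mul, Finset.sum_add_distrib, Finset.mul_sum]
  rw [add_assoc]
  congr 1
  · simp only [ite_mul, zero_mul]
    rw [Finset.sum_ite_eq]
    simp [hx]
  · congr 1
    apply Finset.sum_congr rfl; intro y _; ring

theorem sum_le_of_binary (n : Nat) (u v : Nat → Nat) (hu : ∀ z, u z < 2) (hv : ∀ z, v z < 2) :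
    ∑ z ∈ Finset.range n, u z * v z ≤ n := by
  calc ∑ z ∈ Finset.range n, u z * v z ≤ ∑ _z ∈ Finset.range n, 1 := by
        apply Finset.sum_le_sum
        intro z _
        have h1 := hu z
        have h2 := hv z
        have h3 : u z ≤ 1 := by omega
        have h4 : v z ≤ 1 := by omega
        simpa using Nat.mul_le_mul h3 h4
    _ = n := by simp

/-- The strongly regular graph identity. -/
theorem srg_identity {x y : Nat} (hx : x < 416) (hy : y < 416) :
    ∑ z ∈ Finset.range 416, adjN x z * adjN z y =
      (if x = y then 80 else 0) + 16 * adjN x y + 20 := by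
  have h := Nat.eq_of_beq_eq_true (allBelow_spec _ 416 chkSrg_true x hx)
  have hrow : ∀ z, rowP z = ∑ y ∈ Finset.range 416, adjN z y * 4096 ^ y := by
    intro z
    exact sumTo_eq _ _
  have hunit : unitP = ∑ y ∈ Finset.range 416, 4096 ^ y := sumTo_eq _ _
  have hL : sumTo (fun z => Nat.mul (adjN x z) (rowP z)) 416 =
      ∑ y ∈ Finset.range 416, (∑ z ∈ Finset.range 416, adjN x z * adjN z y) * 4096 ^ y := by
    rw [sumTo_eq]
    show ∑ z ∈ Finset.range 416, adjN x z * rowP z = _
    rw [← swap_sum]
    apply Finset.sum_congr rfl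
    intro z _
    rw [hrow]
  have hR : Nat.add (Nat.mul 80 (Nat.pow 4096 x)) (Nat.add (Nat.mul 16 (rowP x)) (Nat.mul 20 unitP)) =
      ∑ y ∈ Finset.range 416, ((if x = y then 80 else 0) + 16 * adjN x y + 20) * 4096 ^ y := by
    show 80 * 4096 ^ x + (16 * rowP x + 20 * unitP) = _
    rw [hrow, hunit]
    exact rhs_sum 416 4096 adjN x hx
  have hlt : ∀ y, y < 416 → ∑ z ∈ Finset.range 416, adjN x z * adjN z y < 4096 := by
    intro y _
    exact lt_of_le_of_lt (sum_le_of_binary 416 _ _ (adjN_lt x) (fun z => adjN_lt z y)) (by norm_num)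
  have hlt2 : ∀ y, y < 416 → (if x = y then 80 else 0) + 16 * adjN x y + 20 < 4096 := by
    intro y _
    have h1 := adjN_lt x y
    split <;> omega
  exact digit_unique 4096 416 _ _ hlt hlt2 (by rw [← hL, h, hR]) y hy

end Vale.Agent.helper9.Borsuk
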